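import Crest.Agent.N255.Wt.Std
import Crest.Agent.N255.Tg.PA

/-!
# Row 255 (helper76): the standard variables `V ⊕ B` at a vertex and the standard ideals
-/

set_option autoImplicit false
set_option linter.unusedSectionVars false

noncomputable section

namespace N255.Wt

open Finset N255.Dr N255.Dr.O Crest.Agent.N255.Tg Sum
open N255.Core (Wall Ok Xi Hi vw yi)

variable {p : ℕ} [Fact p.Prime] {Γ : Type} [AddCommGroup Γ] {δ : Γ} {s : Fin 3 → Type}
  [∀ i, Fintype (s i)]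

/-- near variables, `y` and `m` -/
def V (w : ∀ i, Wall p Γ δ (s i)) (t : Fin 3 → Bool) : Type := {q // Ok w t q}

/-- far variables -/
def B (w : ∀ i, Wall p Γ δ (s i)) (t : Fin 3 → Bool) : Type :=
  {q : Σ i, s i // (w q.1).kd q.2 = some (!t q.1)}

variable {w : ∀ i, Wall p Γ δ (s i)} {t : Fin 3 → Bool}

instance : Fintype (V w t) := @Fintype.ofFinite _ (Subtype.finite)

instance : Fintype (B w t) := @Fintype.ofFinite _ (Subtype.finite)

instance : DecidableEq (V w t) := Classical.decEq _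

instance : DecidableEq (B w t) := Classical.decEq _

open Classical in
/-- the standard variables; `x0` is a junk value -/
def vsV (x0 : V w t) : Vs w t (V w t) where
  val x := x.1
  em q := if h : Ok w t q then ⟨q, h⟩ else x0
  val_em q h := congrArg Subtype.val (dif_pos h)
  val_inj := Subtype.val_injective
  al x := al_of_ok x.2

theorem vsV_em (x0 : V w t) {q : (Σ i, s i) × Bool} (h : Ok w t q) : (vsV x0).em q = ⟨q, h⟩ :=
  dif_pos h

theorem vsV_ok (x0 x : V w t) : Ok w t ((vsV x0).val x) := x.2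

theorem ok_ne {i : Fin 3} {x : s i} (h : (w i).kd x ≠ some (!t i)) : Ok w t (⟨i, x⟩, false) :=
  Or.inl ⟨rfl, h⟩

/-- the copy of a wall variable in `V ⊕ B` -/
def cp (w : ∀ i, Wall p Γ δ (s i)) (t : Fin 3 → Bool) (i : Fin 3) (x : s i) : V w t ⊕ B w t :=
  if h : (w i).kd x = some (!t i) then inr ⟨⟨i, x⟩, h⟩ else inl ⟨(⟨i, x⟩, false), ok_ne h⟩

theorem cp_far {i : Fin 3} {x : s i} (h : (w i).kd x = some (!t i)) :
    cp w t i x = inr ⟨⟨i, x⟩, h⟩ := dif_pos h

theorem cp_near (x0 : V w t) {i : Fin 3} {x : s i} (h : (w i).kd x ≠ some (!t i)) :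
    cp w t i x = inl ((vsV x0).em (⟨i, x⟩, false)) := by
  rw [cp, dif_neg h, vsV_em x0 (ok_ne h)]

/-- the weight of a far variable -/
def FB (c : ℕ) (b : B w t) : ℕ := N0 c + (w b.1.1).F b.1.2 + 1

/-- the weight of a far variable seen from slot `i` -/
def ob (c : ℕ) (i : Fin 3) (b : B w t) : ℕ := if b.1.1 = i then FB c b else min (FB c b) (N1 c)

variable {c n : ℕ}


theorem ob_le (i : Fin 3) (b : B w t) : ob c i b ≤ FB c b := by unfold ob; split_ifs <;> omega

theorem min_le_ob (i : Fin 3) (b : B w t) : min (FB c b) (N1 c) ≤ ob c i b := by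
  unfold ob; split_ifs <;> omega

theorem le_ob (i : Fin 3) (b : B w t) : N0 c ≤ ob c i b := by
  have := min_le_ob (c := c) i b
  unfold FB N0 N1 at *
  omega

/-- the position of a far variable -/
def Ty.pa (T : Ty w c n) (b : B w t) : ℕ := 2 * (T.σ b.1.1).sc b.1.2

theorem Ty.FB_le (T : Ty w c n) (b : B w t) {γ : ℕ} (hγ : γ ≤ 3 * c) :
    FB c b ≤ N1 c + (T.pa b - 3 * γ) := by
  rw [FB, T.F]
  exact Sg.F_lt T.pos (by rw [← T.kd, b.2]; simp) hγ


namespace Vs

variable {U : Type} [Fintype U] (u : Vs w t U)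

/-- the weight of slot `i` on all variables -/
abbrev oA (c : ℕ) (i : Fin 3) : U ⊕ B w t → ℕ := Sum.elim (u.om c i) (ob c i)

/-- the pure weight on all variables -/
abbrev FA (c : ℕ) : U ⊕ B w t → ℕ := Sum.elim (u.FV c) (FB c)

/-- the main weight on all variables -/
abbrev mA (c La : ℕ) : U ⊕ B w t → ℕ := Sum.elim (u.mw c La) (FB c)

theorem le_oA (i : Fin 3) (x : U ⊕ B w t) : N0 c ≤ u.oA c i x := by
  rcases x with x | x
  exacts [u.le_om i x, le_ob i x]

theorem oA_le (i : Fin 3) (x : U ⊕ B w t) : u.oA c i x ≤ u.FA c x := by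
  rcases x with x | x
  exacts [u.om_le i x, ob_le i x]


theorem FA_le (T : Ty w c n) (x : U ⊕ B w t) : u.FA c x ≤ u.mA c (La p c n) x := by
  rcases x with x | x
  exacts [u.FV_le_mw T x, le_rfl]

theorem le_FA (x : U ⊕ B w t) : N0 c ≤ u.FA c x := (u.le_oA 0 x).trans (u.oA_le 0 x)

theorem le_mA (T : Ty w c n) (x : U ⊕ B w t) : N0 c ≤ u.mA c (La p c n) x :=
  (u.le_FA x).trans (u.FA_le T x)



theorem mw_xi (La : ℕ) (q : Xi w t) : u.mw c La (u.em q.1) = La := by
  rw [mw, u.val_em _ (xi_ok q), mQ, if_pos q.2.2]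

theorem le_mw (T : Ty w c n) (v : U) : N0 c ≤ u.mw c (La p c n) v :=
  (u.le_FV v).trans (u.FV_le_mw T v)

/-- the derivatives of negligible terms -/
abbrev K (c La : ℕ) : Ideal (O p (ZMod p) U) := KK p (ZMod p) (u.mw c La) La

/-- the negligible terms -/
abbrev H (c La : ℕ) : Ideal (O p (ZMod p) U) := HH p (ZMod p) (u.mw c La) La

/-- the macroscopic ideal -/
abbrev L0 (c : ℕ) : Ideal (O p (ZMod p) U) := ⨅ i, Ge p (ZMod p) (u.om c i) (N1 c)

variable {La : ℕ}

theorem sq_le_om (i : Fin 3) {a : ℤ} (h : a ≤ 2 * N0 c) :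
    (mx : Ideal (O p (ZMod p) U)) ^ 2 ≤ Ge p (ZMod p) (u.om c i) a :=
  mx_pow_le' (u.le_om i) (by push_cast; linarith)

theorem sq_le_FV {a : ℤ} (h : a ≤ 2 * N0 c) :
    (mx : Ideal (O p (ZMod p) U)) ^ 2 ≤ Ge p (ZMod p) (u.FV c) a :=
  mx_pow_le' u.le_FV (by push_cast; linarith)

theorem sq_le_L0 : (mx : Ideal (O p (ZMod p) U)) ^ 2 ≤ u.L0 c :=
  le_iInf fun i => u.sq_le_om i (by unfold N0 N1; omega)

theorem h0 (T : Ty w c n) : u.L0 c ≤ mx ⊓ Ge p (ZMod p) (u.FV c) (N1 c) :=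
  le_inf ((iInf_le _ 0).trans (Ge_le_mx (by have := T.pos; unfold N1; omega)))
    ((iInf_le _ 0).trans (Ge_mono (u.om_le 0) le_rfl))

theorem hK2 : u.K c La ≤ mx ^ 2 := inf_le_left

theorem hK0 : u.K c La ≤ u.L0 c := u.hK2.trans u.sq_le_L0

theorem hKq (T : Ty w c n) (q : Xi w t) :
    u.K c La ≤ Ge p (ZMod p) (u.FV c) (u.FV c (u.em q.1) + 1) :=
  u.hK2.trans (u.sq_le_FV (by have := u.FV_xi T q; have := T.pos; unfold N0 N1 at *; omega))


theorem H2 : u.H c La ≤ mx ^ 2 := HH_le_KK.trans u.hK2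

theorem Hw (ok : ∀ v, Ok w t (u.val v)) (R : O p (ZMod p) U) (h : R ∈ u.H c La) :
    Hi (vw w t La u.em (u.FV c)) (3 * La) R := by
  rw [hi_Ge, show vw w t La u.em (u.FV c) = u.mw c La from funext fun v => u.vw_eq La (ok v)]
  exact_mod_cast h.2

end Vs

theorem pd_mem_pow {K U : Type} [CommRing K] [Fact ((p : K) = 0)] [Fintype U] {k : ℕ}
    {f : O p K U} (h : f ∈ (mx : Ideal (O p K U)) ^ (k + 1)) (x : U) :
    pd x f ∈ (mx : Ideal (O p K U)) ^ k := by
  induction k generalizing f with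
  | zero => simp
  | succ k ih =>
    rw [pow_succ] at h
    refine Submodule.mul_induction_on h (fun a ha b hb => ?_) fun a b ha hb => ?_
    · rw [Derivation.leibniz, smul_eq_mul, smul_eq_mul]
      exact add_mem (Ideal.mul_mem_right _ _ ha) (by
        rw [pow_succ']; exact Ideal.mul_mem_mul hb (ih ha))
    · rw [map_add]; exact add_mem ha hb

theorem pd_HH {K U : Type} [CommRing K] [Fact ((p : K) = 0)] [Fintype U] {F : U → ℕ} {La : ℕ}
    {f : O p K U} (h : f ∈ HH p K F La) {x : U} (hx : F x ≤ La + 1) : pd x f ∈ KK p K F La :=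
  ⟨pd_mem_pow h.1 x, (flt_Ge F).anti (by omega) (pd_Ge h.2 x)⟩

theorem Vs.HK {U : Type} [Fintype U] (u : Vs w t U) {La : ℕ} (R : O p (ZMod p) U)
    (h : R ∈ u.H c La) (q : Xi w t) : pd (u.em q.1) R ∈ u.K c La :=
  pd_HH h (by rw [u.mw_xi]; omega)

end N255.Wt

end
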