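import Crest.Agent.N255.Tg.PV

-- ▼ part N255/Tg/PS
section

/-!
# Row 255 (helper23): the standard weight instance of `PVxH`
-/

set_option autoImplicit false
open Set Function Sum

noncomputable section

namespace Crest.Agent.N255.Tg

open _root_.N255.Dr _root_.N255.Dr.O
open _root_.N255.Core (Wall Ok Xi Hi lin vw yi VxH)

variable {p : ℕ} [Fact p.Prime] {Γ : Type} [AddCommGroup Γ] {δ : Γ} {s : Fin 3 → Type}
  [∀ i, Fintype (s i)] {w : ∀ i, Wall p Γ δ (s i)} {t : Fin 3 → Bool} {V : Type} [Fintype V]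

/-- A vertex identity up to `L * L' + H`, shifts controlled by the weights `om i` and `N1`. -/
structure PVxS (w : ∀ i, Wall p Γ δ (s i)) (t : Fin 3 → Bool) (N La : ℕ) (V : Type)
    [Fintype V] where
  em : (Σ i, s i) × Bool → V
  inj : Set.InjOn em {q | Ok w t q}
  FV : V → ℕ
  hF : ∀ i x, Ok w t (⟨i, x⟩, false) → FV (em (⟨i, x⟩, false)) = N + (w i).F x
  hm : ∀ i x, Ok w t (⟨i, x⟩, true) → 0 < FV (em (⟨i, x⟩, true)) ∧ FV (em (⟨i, x⟩, true)) ≤ La
  pos : ∀ i x, 0 < N + (w i).F x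
  hLa : 0 < La
  om : Fin 3 → V → ℕ
  om_le : ∀ i v, om i v ≤ FV v
  om_em : ∀ i x, Ok w t (⟨i, x⟩, false) → om i (em (⟨i, x⟩, false)) = N + (w i).F x
  Bad : Finset V
  cheap : ∀ i q, Ok w t q → q.1.1 ≠ i → em q ∉ Bad → 3 * om i (em q) ≤ FV (em q)
  bad : ∀ q : Xi w t, em q.1 ∈ Bad
  small : 4 * (p * ∑ v ∈ Bad, FV v) < La
  io : ∀ i, O p (ZMod p) (s i) →ₐ[ZMod p] O p (ZMod p) V
  near : ∀ i x, (w i).kd x = some (t i) →
    Hi (om i) (N + (w i).F x) (io i (z x) - z (em (⟨i, x⟩, false)))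
  far : ∀ i x, (w i).kd x = some (!t i) → Hi (om i) (N + (w i).F x) (io i (z x))
  h : ∀ i, s i → s i → O p (ZMod p) V
  hy : ∀ i y, (w i).kd y = none → io i (z y) = ys (w := w) (fun x => z (em (⟨i, x⟩, false))) (h i) y
  N1 : ℕ
  hN1 : 0 < N1
  nu : ℕ
  hnu1 : nu ≤ N1
  hh : ∀ i y y', h i y y' ∈ mx ∧ h i y y' ∈ Ge p (ZMod p) FV nu
  ho : ∀ i y y', (w i).kd y = none → (w i).kd y' = none →
    h i y y' ∈ Ge p (ZMod p) (om i) ((w i).F y + 1 - (w i).F y')
  hnu : ∀ i y y', (w i).kd y = none → (w i).kd y' = none → (w i).F y ≤ (w i).F y' + nu ∧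
    (t i = false → FV (em (⟨i, y'⟩, true)) ≤ FV (em (⟨i, y⟩, true)) + nu)
  c : ∀ i, s i → ZMod p
  hc : ∀ i x, t i = false → (w i).kd x = none → c i x ≠ 0
  Ps : O p (ZMod p) V
  Ps2 : Ps ∈ (mx : Ideal (O p (ZMod p) V)) ^ 2
  hPs : Ps ∈ _root_.N255.Core.Ge (vw w t La em FV) (3 * La)
  Wm : ∀ i a, t i = false → (w i).kd a = none →
    Hi (fun x => N + (w i).F x) (FV (em (⟨i, a⟩, true))) (pd a (w i).W)
  Pm : ∀ q : Xi w t, Hi FV (FV (em (bar q).1)) (pd (em q.1) Ps)
  Po : ∀ i (q : Xi w t), xi' em io h Ps q ∈ Ge p (ZMod p) (om i) (om i (em (bar q).1))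
  Sh : ∀ i, s i → Prop
  iso : ∀ i x x', Sh i x → Sh i x' →
    lin x (pd x' (w i).W) = 0 ∨ N1 ≤ N + (w i).F x ∨ N1 ≤ N + (w i).F x'
  L : Ideal (O p (ZMod p) V)
  L' : Ideal (O p (ZMod p) V)
  K : Ideal (O p (ZMod p) V)
  H : Ideal (O p (ZMod p) V)
  hK1 : ∀ i, K ≤ Ge p (ZMod p) (om i) N1
  hK2 : K ≤ mx ^ 2
  hKq : ∀ q : Xi w t, K ≤ Ge p (ZMod p) FV (FV (em q.1) + 1)
  hKo : ∀ i (q : Xi w t), K ≤ Ge p (ZMod p) (om i) (om i (em q.1))
  KK : K * K ≤ H
  HK : ∀ R ∈ H, ∀ q : Xi w t, pd (em q.1) R ∈ K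
  H2 : H ≤ mx ^ 2
  Hw : ∀ R ∈ H, Hi (vw w t La em FV) (3 * La) R
  hL : L ≤ L'
  up : L ≤ (⨅ i, Ge p (ZMod p) (om i) N1) ⊔
    sp fun q : Xi w t => c q.1.1.1 q.1.1.2 • z (em (bar q).1) + xi' em io h Ps q
  det : L' ≤ (⨆ i, ⨆ x, ⨆ _ : (w i).kd x ≠ none ∧ Sh i x,
      Ge p (ZMod p) (om i) ((N + (w i).F x : ℕ) + 1 - N1) * Ideal.span {io i (pd x (w i).W)}) ⊔
    (⨆ i, ⨆ y, ⨆ y', ⨆ _ : (w i).kd y = none ∧ (w i).kd y' = none,
      Ge p (ZMod p) (om i) ((w i).F y + 1 - (w i).F y' - N1) *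
        Ideal.span {z (em (⟨i, y'⟩, false)) * io i (pd y (w i).W)}) ⊔
    (sp fun q : Xi w t => c q.1.1.1 q.1.1.2 • z (em (bar q).1) + xi' em io h Ps q) ⊔ K
  sq : ∑ i, (if t i = true then io i (w i).W else -io i (w i).W) +
    ∑ i, ∑ x, (if t i = false ∧ (w i).kd x = none then
      c i x • (z (em (⟨i, x⟩, false)) * z (em (⟨i, x⟩, true))) else 0) + Ps ∈ L * L' ⊔ H

namespace PVxS

variable {N La : ℕ} (v : PVxS w t N La V)

open Classical in
/-- the general form -/
def toH : PVxH w t N La V :=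
  { v with
    hF := fun i x hx => v.hF i x (ok_y hx)
    hFn := fun i x hx => v.hF i x (ok_near hx)
    hio := fun i x hx => by
      have : v.io i (z x) ∈ Ge p (ZMod p) (v.om i) (N + (w i).F x : ℕ) := by
        by_cases hn : (w i).kd x = some (t i)
        · have h1 := z_mem_Ge (p := p) (K := ZMod p) (v.om i) (v.em (⟨i, x⟩, false))
          rw [v.om_em i x (ok_near hn)] at h1
          simpa using add_mem ((flt_Ge _).anti (by omega) (hi_Ge.1 (v.near i x hn))) h1
        · refine (flt_Ge _).anti (by omega) (hi_Ge.1 (v.far i x ?_))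
          rcases hk : (w i).kd x with _ | b
          · exact absurd hk hx
          · rw [hk] at hn; cases b <;> simp_all
      exact ⟨Ge_le_mx (by have := v.pos i x; omega) this, Ge_mono (v.om_le i) le_rfl this⟩
    nu := fun _ _ _ => v.nu
    Pmm := fun q q' _ => pmm_of v.inj (_root_.N255.Core.hi_iff.2
      (_root_.N255.Core.Ge_anti (by have := v.hLa; omega) v.hPs)) q q'
    C := fun i x => if v.Sh i x then Ge p (ZMod p) (v.om i) ((N + (w i).F x : ℕ) + 1 - v.N1) else ⊥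
    C' := fun i y y' => Ge p (ZMod p) (v.om i) ((w i).F y + 1 - (w i).F y' - v.N1)
    iso := fun i x x' _ _ => by
      by_cases h1 : v.Sh i x; swap
      · simp [h1]
      by_cases h2 : v.Sh i x'; swap
      · simp [h2]
      rw [if_pos h1, if_pos h2]
      exact (v.iso i x x' h1 h2).imp_right fun h => h.elim
        (fun h => Ideal.mul_le_left.trans (Ge_le_mx (by omega)))
        fun h => Ideal.mul_le_right.trans (Ge_le_mx (by omega))
    mu := v.N1
    hC := fun i x _ => by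
      split_ifs
      exacts [Ge_mono (v.om_le i) (by omega), bot_le]
    hC' := fun i y y' => le_top.trans ((flt_Ge _).zero.ge.trans
      ((flt_Ge _).anti (by have := v.hnu1; omega)))
    L0 := ⨅ i, Ge p (ZMod p) (v.om i) v.N1
    h0 := le_inf ((iInf_le _ 0).trans (Ge_le_mx (by have := v.hN1; omega)))
      ((iInf_le _ 0).trans (Ge_mono (v.om_le 0) le_rfl))
    st := fun θ th => ⟨fun f hf => (Submodule.mem_iInf _).2 fun i =>
        map_Ge (flt_Ge _) (th.om i) ((Submodule.mem_iInf _).1 hf i), fun i x f hf => by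
        split_ifs at hf ⊢
        exacts [map_Ge (flt_Ge _) (th.om i) hf, by simpa using congrArg θ hf],
      fun i y y' f hf => map_Ge (flt_Ge _) (th.om i) hf⟩
    hK0 := le_iInf v.hK1
    det := v.det.trans (sup_le_sup_right (sup_le_sup_right (sup_le_sup_right
      (iSup_mono fun i => iSup_mono fun x => iSup_le fun hx =>
        le_iSup_of_le hx.1 (by rw [if_pos hx.2])) _) _) _)
    sh := fun i x _ => by
      split_ifs
      exacts [(flt_Ge _).mul_le (iInf_le _ i) le_rfl (by omega), by simp]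
    sh' := fun i y y' _ _ => (flt_Ge _).mul_le (iInf_le _ i) le_rfl (by omega) }

/-- **step 3 of the producer**, standard weights -/
theorem vxH : ∃ u : VxH w t N La V, ∀ al : ∀ i, s i, (∀ i, (w i).kd (al i) = none) → u.cub al =
    aug (pd (v.em (⟨0, al 0⟩, !t 0)) (pd (v.em (⟨1, al 1⟩, !t 1)) (pd (v.em (⟨2, al 2⟩, !t 2)) v.Ps))) :=
  v.toH.vxH

end PVxS

end Crest.Agent.N255.Tg

end
end

-- ▼ part N255/Wt/Std

/-!
# Row 255 (helper76): the standard weights of the producer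

One constant `c` (bound for depths and gaps).  `N0 = 40 c` is the minimal weight (the variables `m`),
`N1 = 52 c` the weight of the `y`.
-/

set_option autoImplicit false
set_option linter.unusedSectionVars false

noncomputable section

namespace N255.Wt

open Finset N255.Dr N255.Dr.O Crest.Agent.N255.Tg
open N255.Core (Wall Ok Xi Hi vw yi)

/-! ### numbers -/

/-- the minimal weight -/
def N0 (c : ℕ) : ℕ := 40 * c

/-- the macroscopic bound -/
def N1 (c : ℕ) : ℕ := 52 * c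

/-- the main weight; `B` bounds the number of variables of scale `≤ 60 c` of a wall -/
def La (p c B : ℕ) : ℕ := 2 * (2000 * (p * (B * c)) + 30 * c) + 1


theorem La_odd (p c B : ℕ) : Odd (La p c B) := ⟨_, rfl⟩

theorem N1_lt_La (p c B : ℕ) : N1 c < La p c B := by unfold N1 La; omega

theorem La_pos (p c B : ℕ) : 0 < La p c B := by unfold La; omega



/-- the types of the variables of a wall: `hol` marks the holonomy variables `w` -/
structure Sg (c : ℕ) (s : Type) where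
  kd : s → Option Bool
  hol : s → Bool
  sc : s → ℕ
  dp : s → ℕ
  dp_le : ∀ x, dp x ≤ c
  sc_y : ∀ x, kd x = none → sc x = 0
  sc_w : ∀ x, hol x = true → sc x = 0

namespace Sg

variable {c : ℕ} {s s' : Type} (σ : Sg c s)

/-- the weight is `N0 c + F x` -/
def F (x : s) : ℕ :=
  if σ.kd x = none then 12 * c else if σ.hol x = true then 10 * c else 2 + 2 * σ.dp x + 2 * σ.sc x

variable {σ} {σ' : Sg c s'} {x : s} {x' : s'}

theorem F_y (h : σ.kd x = none) : N0 c + σ.F x = N1 c := by rw [F, if_pos h, N0, N1]; omega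

theorem F_w (h : σ.kd x ≠ none) (h' : σ.hol x = true) : σ.F x = 10 * c := by
  rw [F, if_neg h, if_pos h']

theorem F_cl (h : σ.kd x ≠ none) (h' : σ.hol x = false) :
    σ.F x = 2 + 2 * σ.dp x + 2 * σ.sc x := by
  rw [F, if_neg h, if_neg (by simp [h'])]

theorem F_even (x : s) : Even (N0 c + σ.F x) := by
  unfold N0 F
  rw [Nat.even_iff]
  split_ifs <;> omega

theorem F_pos (hc : 0 < c) (x : s) : 2 ≤ σ.F x := by unfold F; split_ifs <;> omega

/-- lower bound by the scale -/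
theorem le_F (hc : 0 < c) (x : s) : 2 + 2 * σ.sc x ≤ σ.F x := by
  have := σ.sc_y x
  have := σ.sc_w x
  unfold F
  split_ifs <;> simp_all <;> omega


theorem F_le' (x : s) : σ.F x ≤ 2 + 12 * c + 2 * σ.sc x := by
  have := σ.dp_le x
  unfold F
  split_ifs <;> omega

/-- shiftable variables are cheaper than `N1` up to their position `2 * sc`, with any gap `≤ 3 c` -/
theorem F_lt (hc : 3 ≤ c) (h : σ.kd x ≠ none) {γ : ℕ} (hγ : γ ≤ 3 * c) :
    N0 c + σ.F x + 1 ≤ N1 c + (2 * σ.sc x - 3 * γ) := by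
  have := σ.dp_le x
  rw [N0, N1, F, if_neg h]
  split_ifs <;> omega




/-- transfer between classes of scale zero -/
theorem F_lt_dp (h : σ.kd x ≠ none) (h1 : σ.hol x = false) (h2 : σ.sc x = 0)
    (h' : σ'.kd x' ≠ none) (h1' : σ'.hol x' = false) (hd : σ.dp x < σ'.dp x') :
    σ.F x < σ'.F x' := by
  rw [F_cl h h1, F_cl h' h1']; omega

/-- transfer from a holonomy variable -/
theorem F_lt_w (hc : 0 < c) (h : σ.kd x ≠ none) (h1 : σ.hol x = false) (h2 : σ.sc x ≤ 2 * c)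
    (h' : σ'.kd x' ≠ none) (h1' : σ'.hol x' = true) : σ.F x < σ'.F x' := by
  have := σ.dp_le x
  rw [F_cl h h1, F_w h' h1']; omega

/-- macroscopic shiftable variables weigh less than `N1` -/
theorem F_lt_N1 (hc : 3 ≤ c) (h : σ.kd x ≠ none) (h2 : σ.sc x ≤ 4 * c) :
    N0 c + σ.F x < N1 c := by
  have := σ.dp_le x
  rw [N0, N1, F, if_neg h]
  split_ifs <;> omega

theorem sc_le (hc : 0 < c) (h : N0 c + σ.F x < 3 * N1 c) : σ.sc x ≤ 60 * c := by
  have := le_F (σ := σ) hc x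
  unfold N0 N1 at h
  omega

end Sg

/-! ### variables at a vertex -/

variable {p : ℕ} [Fact p.Prime] {Γ : Type} [AddCommGroup Γ] {δ : Γ} {s : Fin 3 → Type}
  [∀ i, Fintype (s i)]

/-- all wall variables and the variables `m` -/
def Al (w : ∀ i, Wall p Γ δ (s i)) (t : Fin 3 → Bool) (q : (Σ i, s i) × Bool) : Prop :=
  q.2 = true → t q.1.1 = false ∧ (w q.1.1).kd q.1.2 = none

variable {w : ∀ i, Wall p Γ δ (s i)} {t : Fin 3 → Bool}

theorem al_of_ok {q : (Σ i, s i) × Bool} (h : Ok w t q) : Al w t q := fun h' =>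
  h.elim (fun h => by simp [h'] at h) fun h => h.2

theorem al_false (x : Σ i, s i) : Al w t (x, false) := fun h => by simp at h

/-- a type of variables at a vertex -/
structure Vs (w : ∀ i, Wall p Γ δ (s i)) (t : Fin 3 → Bool) (V : Type) where
  val : V → (Σ i, s i) × Bool
  em : (Σ i, s i) × Bool → V
  val_em : ∀ q, Ok w t q → val (em q) = q
  val_inj : Function.Injective val
  al : ∀ v, Al w t (val v)

/-- `U₀ + U₁ + U₂ + m` -/
def S (w : ∀ i, Wall p Γ δ (s i)) (t : Fin 3 → Bool) : Type := {q // Al w t q}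

instance : Fintype (S w t) := @Fintype.ofFinite _ (Subtype.finite)

instance : DecidableEq (S w t) := Classical.decEq _

/-- the copy of a wall variable -/
def S.u (w : ∀ i, Wall p Γ δ (s i)) (t : Fin 3 → Bool) (i : Fin 3) (x : s i) : S w t :=
  ⟨(⟨i, x⟩, false), al_false _⟩




open Classical in
/-- restriction to a set of variables containing the `Ok` ones -/
def Vs.sub {V : Type} (u : Vs w t V) (A : V → Prop) (hA : ∀ q, Ok w t q → A (u.em q))
    (x0 : {x // A x}) : Vs w t {x // A x} where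
  val x := u.val x.1
  em q := if h : Ok w t q then ⟨u.em q, hA q h⟩ else x0
  val_em q h := by rw [dif_pos h]; exact u.val_em q h
  val_inj := u.val_inj.comp Subtype.val_injective
  al x := u.al x.1

/-- the pure weight -/
def FQ (w : ∀ i, Wall p Γ δ (s i)) (c : ℕ) (q : (Σ i, s i) × Bool) : ℕ :=
  if q.2 = true then N0 c else N0 c + (w q.1.1).F q.1.2

/-- the weight of slot `i` -/
def oQ (w : ∀ i, Wall p Γ δ (s i)) (c : ℕ) (i : Fin 3) (q : (Σ i, s i) × Bool) : ℕ :=
  if q.1.1 = i then FQ w c q else min (FQ w c q) (N1 c)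

/-- the main weight: `La` on the `y` and `m` -/
def mQ (w : ∀ i, Wall p Γ δ (s i)) (c La : ℕ) (q : (Σ i, s i) × Bool) : ℕ :=
  if (w q.1.1).kd q.1.2 = none then La else FQ w c q

variable {c : ℕ}

@[simp] theorem FQ_u (i : Fin 3) (x : s i) : FQ w c (⟨i, x⟩, false) = N0 c + (w i).F x := rfl

@[simp] theorem FQ_m (x : Σ i, s i) : FQ w c (x, true) = N0 c := rfl

theorem oQ_own (i : Fin 3) (x : s i) (b : Bool) : oQ w c i (⟨i, x⟩, b) = FQ w c (⟨i, x⟩, b) :=
  if_pos rfl

theorem oQ_ne {i : Fin 3} {q : (Σ i, s i) × Bool} (h : q.1.1 ≠ i) :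
    oQ w c i q = min (FQ w c q) (N1 c) := if_neg h

theorem oQ_le (i : Fin 3) (q : (Σ i, s i) × Bool) : oQ w c i q ≤ FQ w c q := by
  unfold oQ; split_ifs <;> omega

theorem min_le_oQ (i : Fin 3) (q : (Σ i, s i) × Bool) : min (FQ w c q) (N1 c) ≤ oQ w c i q := by
  unfold oQ; split_ifs <;> omega

theorem le_FQ (q : (Σ i, s i) × Bool) : N0 c ≤ FQ w c q := by unfold FQ; split_ifs <;> omega

theorem le_oQ (i : Fin 3) (q : (Σ i, s i) × Bool) : N0 c ≤ oQ w c i q := by
  have := min_le_oQ (w := w) (c := c) i q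
  have := le_FQ (w := w) (c := c) q
  unfold N0 N1 at *
  omega

/-- the walls carry the standard weights -/
structure Ty (w : ∀ i, Wall p Γ δ (s i)) (c B : ℕ) where
  σ : ∀ i, Sg c (s i)
  kd : ∀ i x, (w i).kd x = (σ i).kd x
  F : ∀ i x, (w i).F x = (σ i).F x
  pos : 3 ≤ c
  cnt : ∀ i, (univ.filter fun x => (σ i).sc x ≤ 60 * c).card ≤ B

variable {B : ℕ}

theorem Ty.F_y (T : Ty w c B) {i : Fin 3} {x : s i} (h : (w i).kd x = none) :
    N0 c + (w i).F x = N1 c := by rw [T.F]; exact Sg.F_y (T.kd i x ▸ h)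

theorem Ty.FQ_le (T : Ty w c B) {q : (Σ i, s i) × Bool} (h : (w q.1.1).kd q.1.2 = none) :
    FQ w c q ≤ N1 c := by
  have := T.F_y h
  unfold FQ
  split_ifs <;> omega

theorem Ty.FQ_le_mQ (T : Ty w c B) (q : (Σ i, s i) × Bool) :
    FQ w c q ≤ mQ w c (La p c B) q := by
  unfold mQ
  split_ifs with h
  · exact (T.FQ_le h).trans (N1_lt_La p c B).le
  · rfl

namespace Vs

variable {V : Type} [Fintype V] (u : Vs w t V)

/-- the pure weight -/
def FV (c : ℕ) (v : V) : ℕ := FQ w c (u.val v)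

/-- the weights of the slots -/
def om (c : ℕ) (i : Fin 3) (v : V) : ℕ := oQ w c i (u.val v)

/-- the main weight, with the pure weight on far variables -/
def mw (c La : ℕ) (v : V) : ℕ := mQ w c La (u.val v)

/-- the light variables -/
def Bad (c : ℕ) : Finset V := univ.filter fun v => u.FV c v < 3 * N1 c

theorem inj : Set.InjOn u.em {q | Ok w t q} := fun q hq q' hq' e => by
  rw [← u.val_em q hq, e, u.val_em q' hq']

theorem em_val {v : V} (h : Ok w t (u.val v)) : u.em (u.val v) = v := u.val_inj (u.val_em _ h)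

theorem FV_em {q : (Σ i, s i) × Bool} (h : Ok w t q) : u.FV c (u.em q) = FQ w c q := by
  rw [FV, u.val_em q h]

theorem om_em' (i : Fin 3) {q : (Σ i, s i) × Bool} (h : Ok w t q) :
    u.om c i (u.em q) = oQ w c i q := by rw [om, u.val_em q h]

theorem hF (i : Fin 3) (x : s i) (h : Ok w t (⟨i, x⟩, false)) :
    u.FV c (u.em (⟨i, x⟩, false)) = N0 c + (w i).F x := u.FV_em h

theorem FV_m (i : Fin 3) (x : s i) (h : Ok w t (⟨i, x⟩, true)) :
    u.FV c (u.em (⟨i, x⟩, true)) = N0 c := u.FV_em h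

theorem hm (T : Ty w c B) (i : Fin 3) (x : s i) (h : Ok w t (⟨i, x⟩, true)) :
    0 < u.FV c (u.em (⟨i, x⟩, true)) ∧ u.FV c (u.em (⟨i, x⟩, true)) ≤ La p c B := by
  have := N1_lt_La p c B
  have := T.pos
  rw [u.FV_m i x h]
  unfold N0 N1 at *
  omega

theorem om_le (i : Fin 3) (v : V) : u.om c i v ≤ u.FV c v := oQ_le i _

theorem om_em (i : Fin 3) (x : s i) (h : Ok w t (⟨i, x⟩, false)) :
    u.om c i (u.em (⟨i, x⟩, false)) = N0 c + (w i).F x := by
  rw [u.om_em' i h, oQ_own, FQ_u]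

theorem le_om (i : Fin 3) (v : V) : N0 c ≤ u.om c i v := le_oQ i _

theorem le_FV (v : V) : N0 c ≤ u.FV c v := le_FQ _

theorem FV_le_mw (T : Ty w c B) (v : V) : u.FV c v ≤ u.mw c (La p c B) v := T.FQ_le_mQ _

theorem cheap (i : Fin 3) (q : (Σ i, s i) × Bool) (h : Ok w t q) (hi : q.1.1 ≠ i)
    (hb : u.em q ∉ u.Bad c) : 3 * u.om c i (u.em q) ≤ u.FV c (u.em q) := by
  rw [Bad, mem_filter, u.FV_em h] at hb
  rw [u.om_em' i h, u.FV_em h, oQ_ne hi]
  simp only [mem_univ, true_and] at hb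
  omega

theorem FV_xi (T : Ty w c B) (q : Xi w t) : u.FV c (u.em q.1) ≤ N1 c := by
  rw [u.FV_em (xi_ok q)]; exact T.FQ_le q.2.2

theorem bad (T : Ty w c B) (q : Xi w t) : u.em q.1 ∈ u.Bad c := by
  have := u.FV_xi T q
  have := T.pos
  rw [Bad, mem_filter]
  unfold N1 at *
  exact ⟨mem_univ _, by omega⟩

theorem card_Bad (T : Ty w c B) : (u.Bad c).card ≤ 6 * B := by
  classical
  have h1 : (u.Bad c).card ≤ (((univ : Finset (Fin 3)).sigma fun i =>
      univ.filter fun x => (T.σ i).sc x ≤ 60 * c) ×ˢ (univ : Finset Bool)).card := by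
    refine card_le_card_of_injOn u.val (fun v hv => ?_) u.val_inj.injOn
    have h2 : FQ w c (u.val v) < 3 * N1 c := (mem_filter.1 (mem_coe.1 hv)).2
    have h3 := u.al v
    generalize u.val v = q at h2 h3
    obtain ⟨⟨i, x⟩, _ | _⟩ := q
    · rw [FQ_u, T.F] at h2
      simpa using Sg.sc_le (by have := T.pos; omega) h2
    · simpa using ((T.σ i).sc_y x (T.kd i x ▸ (h3 rfl).2)).trans_le (Nat.zero_le _)
  rw [card_product, card_sigma, Fin.sum_univ_three, card_univ, Fintype.card_bool] at h1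
  have := T.cnt 0
  have := T.cnt 1
  have := T.cnt 2
  omega

theorem small (T : Ty w c B) : 4 * (p * ∑ v ∈ u.Bad c, u.FV c v) < La p c B := by
  have h1 : ∑ v ∈ u.Bad c, u.FV c v ≤ (u.Bad c).card • (3 * N1 c) :=
    sum_le_card_nsmul _ _ _ fun v hv => (mem_filter.1 hv).2.le
  have h2 := Nat.mul_le_mul_right (3 * N1 c) (u.card_Bad T)
  have h3 : ∑ v ∈ u.Bad c, u.FV c v ≤ 936 * (B * c) := by
    rw [smul_eq_mul] at h1
    refine (h1.trans h2).trans_eq ?_
    unfold N1; ring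
  have h4 := Nat.mul_le_mul_left p h3
  rw [mul_left_comm] at h4
  unfold La
  omega

/-- on `Ok` variables the main weight is `vw` -/
theorem vw_eq (La : ℕ) {v : V} (h : Ok w t (u.val v)) :
    vw w t La u.em (u.FV c) v = u.mw c La v := by
  unfold vw mw mQ
  have e := u.em_val h
  by_cases hk : (w (u.val v).1.1).kd (u.val v).1.2 = none
  · rw [if_pos hk, if_neg]
    rintro ⟨i, x, h1, rfl⟩
    rw [u.val_em _ (ok_near h1)] at hk
    simp [h1] at hk
  · rw [if_neg hk, if_pos]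
    · rfl
    generalize u.val v = q at h e hk
    obtain ⟨⟨i, x⟩, b⟩ := q
    rcases h with ⟨h1, h2⟩ | h
    · refine ⟨i, x, ?_, by rw [← e]; simp only at h1; rw [h1]⟩
      simp only at h2 hk
      rcases hx : (w i).kd x with _ | b
      · exact absurd hx hk
      · rw [hx] at h2; cases b <;> cases ht : t i <;> simp_all
    · exact absurd h.2.2 hk

end Vs

/-! ### ideals -/

section ideals

variable {K : Type} [CommRing K] [Fact ((p : K) = 0)] {V : Type} [Fintype V] {F : V → ℕ} {n : ℕ}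

theorem mx_le (h : ∀ v, n ≤ F v) : (mx : Ideal (O p K V)) ≤ Ge p K F n :=
  Ideal.span_le.2 (by
    rintro _ ⟨i, rfl⟩
    exact (flt_Ge F).anti (by have := h i; omega) (z_mem_Ge F i))

theorem mx_pow_le (h : ∀ v, n ≤ F v) (k : ℕ) :
    (mx : Ideal (O p K V)) ^ k ≤ Ge p K F (n * k : ℕ) := by
  induction k with
  | zero => simp [(flt_Ge F).zero]
  | succ k ih =>
    rw [pow_succ]
    exact (flt_Ge F).mul_le ih (mx_le h) (by push_cast; linarith)

theorem mx_pow_le' (h : ∀ v, n ≤ F v) {k : ℕ} {a : ℤ} (ha : a ≤ (n * k : ℕ)) :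
    (mx : Ideal (O p K V)) ^ k ≤ Ge p K F a := (mx_pow_le h k).trans ((flt_Ge F).anti ha)

/-- the negligible ideal -/
def HH (p : ℕ) (K : Type) [CommRing K] (F : V → ℕ) (La : ℕ) : Ideal (O p K V) :=
  mx ^ 3 ⊓ Ge p K F (3 * La + 1)

/-- the ideal of its derivatives -/
def KK (p : ℕ) (K : Type) [CommRing K] (F : V → ℕ) (La : ℕ) : Ideal (O p K V) :=
  mx ^ 2 ⊓ Ge p K F (2 * La)

variable {La : ℕ}

theorem KK_mul (hL : 0 < La) : KK p K F La * KK p K F La ≤ HH p K F La :=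
  le_inf ((Ideal.mul_mono inf_le_left inf_le_left).trans (by
    rw [← pow_add]; exact Ideal.pow_le_pow_right (by norm_num)))
    ((flt_Ge F).mul_le inf_le_right inf_le_right (by omega))

theorem HH_le_KK : HH p K F La ≤ KK p K F La :=
  inf_le_inf (Ideal.pow_le_pow_right (by norm_num)) ((flt_Ge F).anti (by omega))

theorem pow_le_HH (h : ∀ v, n ≤ F v) {k : ℕ} (h3 : 3 ≤ k) (hk : 3 * La < n * k) :
    (mx : Ideal (O p K V)) ^ k ≤ HH p K F La :=
  le_inf (Ideal.pow_le_pow_right h3) (mx_pow_le' h (by omega))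

end ideals

end N255.Wt

end
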